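/-
P342 (helper465): definitions for the soundness part of helper948's proof that
3 vs c colouring is NP-hard for every c (sections 1, 2, 5 of p342_proof.md).

Common label type `K` for both sides of the label cover; `Finset (Fin l)` indexes the layers `U`,
and *every* layer uses the same label-tuple type `Fin l → K` (useless coordinates do no harm, because the
junta size in the analytic lemma does not depend on the number of coordinates).
-/
import Mathlib

namespace Vale.Agent.P342.Fld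

open Finset

/-! ### Label cover and the graph `Γ` -/

/-- A label cover instance: left vertices `A`, right vertices `B`, edges `E`, common label type `K`. -/
structure LC where
  A : Type
  B : Type
  E : Type
  K : Type
  lft : E → A
  rgt : E → B
  pr : E → K → K

/-- the constraint relation between the labels of two vertices in one block: equal vertices, or the two
ends of an edge. -/
inductive LC.BRel (G : LC) : G.A ⊕ G.B → G.A ⊕ G.B → (G.K → G.K → Prop) → Prop
  | refl (v) : LC.BRel G v v (fun x y => x = y)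
  | lr (e : G.E) : LC.BRel G (Sum.inl (G.lft e)) (Sum.inr (G.rgt e)) (fun x y => G.pr e x = y)
  | rl (e : G.E) : LC.BRel G (Sum.inr (G.rgt e)) (Sum.inl (G.lft e)) (fun x y => x = G.pr e y)

/-- vertices of `Γ` -/
abbrev GV (G : LC) (l : ℕ) : Type := (Fin l → G.A ⊕ G.B) × ((Fin l → G.K) → Fin 3)

/-- adjacency of `Γ` -/
def GAdj (G : LC) (l : ℕ) (P P' : GV G l) : Prop :=
  ∃ r : Fin l → G.K → G.K → Prop, (∀ b, LC.BRel G (P.1 b) (P'.1 b) (r b)) ∧
    ∀ u u' : Fin l → G.K, (∀ b, r b (u b) (u' b)) → P.2 u ≠ P'.2 u'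

/-! ### Types and layers -/

/-- `t` is a type: all entries `≤ m`, some entry equal to `m`. -/
def IsTy (l m : ℕ) (t : Fin l → ℕ) : Prop := (∀ b, t b ≤ m) ∧ ∃ b, t b = m

/-- weight of the layer `U` -/
def wt {l : ℕ} (m : ℕ) (t : Fin l → ℕ) (U : Finset (Fin l)) : ℕ :=
  ((Finset.Icc 1 m).filter (fun j => (univ.filter (fun b => j ≤ t b)) = U)).card

/-- coefficient of the layer `U` -/
def cf {l : ℕ} (m : ℕ) (t : Fin l → ℕ) (U : Finset (Fin l)) : ℕ := min m (l * wt m t U)

open Classical in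
/-- the full layer `U(t)` (washes `θ`). -/
noncomputable def fl {l : ℕ} (m : ℕ) (t : Fin l → ℕ) : Finset (Fin l) :=
  if h : ∃ U, cf m t U = m then h.choose else ∅

variable {l : ℕ} {K : Type}

/-- projection of a label tuple `u` of the vertex `V_t` to layer `U`
(`π b` is the projection of the edge chosen in block `b`). -/
def res (π : Fin l → K → K) (t : Fin l → ℕ) (U : Finset (Fin l)) (u : Fin l → K) : Fin l → K :=
  fun b => if b ∈ U then u b else if t b = 0 then u b else π b (u b)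

/-- projection from layer `U` to layer `∅`. -/
def down (π : Fin l → K → K) (U : Finset (Fin l)) (ν : Fin l → K) : Fin l → K :=
  fun b => if b ∈ U then π b (ν b) else ν b

/-- index set of the washed probability space. -/
abbrev Idx (l : ℕ) (K : Type) : Type := Finset (Fin l) × (Fin l → K)

/-- the washed probability space `{0..Q-1}^I` -/
abbrev Om (l : ℕ) (K : Type) (Q : ℕ) : Type := Idx l K → Fin Q

/-- the big probability space: `θ` and the `ζ`s. -/
abbrev Bg (l : ℕ) (K : Type) (Q : ℕ) : Type := ((Fin l → K) → Fin Q) × Om l K Q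

/-- the scaled value `g(c,z) = ⌊c z / m⌋`. -/
def gs (m c z : ℕ) : ℕ := c * z / m

/-- the field: `X_t(ω)(u) = Σ_U g(c_U(t), ω_U(u|_U))` (an integer, to be read mod `Q`). -/
def fieldX (m : ℕ) {Q : ℕ} (π : Fin l → K → K) (t : Fin l → ℕ) (ω : Om l K Q) (u : Fin l → K) : ℕ :=
  ∑ U : Finset (Fin l), gs m (cf m t U) (ω (U, res π t U u))

/-- the three arcs `q(x) = ⌊3x/Q⌋` of `Z/Q`. -/
def arc (Q x : ℕ) (hQ : 0 < Q) : Fin 3 := ⟨3 * (x % Q) / Q, by
  have h := Nat.mod_lt x hQ
  rw [Nat.div_lt_iff_lt_mul hQ]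
  nlinarith⟩

/-- the point assignment `φ = q ∘ X_t(ω)`. -/
def phi (m : ℕ) {Q : ℕ} (hQ : 0 < Q) (π : Fin l → K → K) (t : Fin l → ℕ) (ω : Om l K Q) :
    (Fin l → K) → Fin 3 := fun u => arc Q (fieldX m π t ω u) hQ

/-- the vertex tuple `V_t` for the edges `e`. -/
def Vt (G : LC) (e : Fin l → G.E) (t : Fin l → ℕ) : Fin l → G.A ⊕ G.B :=
  fun b => if t b = 0 then Sum.inr (G.rgt (e b)) else Sum.inl (G.lft (e b))

/-- `F_t = f (V_t, q ∘ X_t(·))` -/
def Ft (G : LC) (e : Fin l → G.E) (m : ℕ) {Q : ℕ} (hQ : 0 < Q) {C : Type} (f : GV G l → C)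
    (t : Fin l → ℕ) (ω : Om l G.K Q) : C :=
  f (Vt G e t, phi m hQ (fun b => G.pr (e b)) t ω)

/-- addition mod `Q` -/
def addQ {Q : ℕ} (x y : Fin Q) : Fin Q := ⟨(x.1 + y.1) % Q, Nat.mod_lt _ (by have := x.2; omega)⟩

/-- half turn -/
def rot {Q : ℕ} (x : Fin Q) : Fin Q := ⟨(x.1 + Q / 2) % Q, Nat.mod_lt _ (by have := x.2; omega)⟩

/-- washing `π_t : Ω → Ω_t`. -/
noncomputable def wash (m : ℕ) {Q : ℕ} (π : Fin l → K → K) (t : Fin l → ℕ) (Θ : Bg l K Q) : Om l K Q :=
  fun p => if p.1 = fl m t then addQ (Θ.1 (down π p.1 p.2)) (Θ.2 p) else Θ.2 p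

/-- add half a turn to `θ(ρ)` for all `ρ` with `s ρ = true`. -/
def sig {Q : ℕ} (s : (Fin l → K) → Bool) (Θ : Bg l K Q) : Bg l K Q :=
  (fun ρ => if s ρ then rot (Θ.1 ρ) else Θ.1 ρ, Θ.2)

end Vale.Agent.P342.Fld
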